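import Vale.Agent.P039.B893.Cut
import Mathlib.Data.Set.Card

/-! Edge cuts of a web and of the two sides of an edge cut with three edges. -/

namespace Vale.Agent.P039.B893

open Vale.Agent.P039.Sk

variable {B W V : Type}

/-- The edges (colour, black end) between `S ∪ T` and the rest. -/
def cutS (X : Web B W) (S : B → Prop) (T : W → Prop) : Set (Fin 3 × B) :=
  {p | ¬ (S p.2 ↔ T (X.e p.1 p.2))}

/-- 3-edge-connected -/
def C3 (X : Web B W) : Prop :=
  ∀ (S : B → Prop) (T : W → Prop), ((∃ b, S b) ∨ ∃ w, T w) → ((∃ b, ¬ S b) ∨ ∃ w, ¬ T w) →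
    3 ≤ (cutS X S T).ncard

theorem C3.conn {X : Web B W} (h : C3 X) : ConnC X := by
  intro S T hST hT
  by_contra hne
  push Not at hne
  have h1 := h S T (Or.inr hT) (Or.inr hne)
  have h2 : cutS X S T = ∅ := by
    ext p
    simp only [cutS, Set.mem_setOf_eq, Set.mem_empty_iff_false, iff_false, not_not]
    exact hST p.1 p.2
  rw [h2, Set.ncard_empty] at h1
  omega

namespace Cut3

variable {X : Web B W} {S : B → Prop} {T : W → Prop} (k : Cut3 X S T)

theorem C3_X1 (h : C3 X) : C3 k.X1 := by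
  classical
  intro S' T' h1 h2
  let S'' : B → Prop := fun b => if hb : S b then S' ⟨b, hb⟩ else T' none
  let T'' : W → Prop := fun w => if hw : T w then T' (some ⟨w, hw⟩) else T' none
  have hS1 : ∀ b (hb : S b), S'' b = S' ⟨b, hb⟩ := fun b hb => dif_pos hb
  have hS2 : ∀ b (_ : ¬ S b), S'' b = T' none := fun b hb => dif_neg hb
  have hT1 : ∀ w (hw : T w), T'' w = T' (some ⟨w, hw⟩) := fun b hb => dif_pos hb
  have hT2 : ∀ w (_ : ¬ T w), T'' w = T' none := fun b hb => dif_neg hb
  have e1 : (∃ b, S'' b) ∨ ∃ w, T'' w := by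
    rcases h1 with ⟨a, ha⟩ | ⟨w, hw⟩
    · exact Or.inl ⟨a.1, by rw [hS1 a.1 a.2]; exact ha⟩
    · cases w with
      | none => exact Or.inr ⟨_, by rw [hT2 _ (k.hw 0)]; exact hw⟩
      | some w => exact Or.inr ⟨w.1, by rw [hT1 w.1 w.2]; exact hw⟩
  have e2 : (∃ b, ¬ S'' b) ∨ ∃ w, ¬ T'' w := by
    rcases h2 with ⟨a, ha⟩ | ⟨w, hw⟩
    · exact Or.inl ⟨a.1, by rw [hS1 a.1 a.2]; exact ha⟩
    · cases w with
      | none => exact Or.inr ⟨_, by rw [hT2 _ (k.hw 0)]; exact hw⟩
      | some w => exact Or.inr ⟨w.1, by rw [hT1 w.1 w.2]; exact hw⟩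
  have h3 := h S'' T'' e1 e2
  have h4 : cutS X S'' T'' = (fun p : Fin 3 × {a // S a} => (p.1, p.2.1)) '' cutS k.X1 S' T' := by
    ext p
    obtain ⟨i, b⟩ := p
    simp only [cutS, Set.mem_setOf_eq, Set.mem_image, Prod.mk.injEq, Prod.exists,
      Subtype.exists]
    by_cases hb : S b
    · rw [hS1 b hb]
      have key : T'' (X.e i b) = T' (k.X1.e i ⟨b, hb⟩) := by
        by_cases hw : T (X.e i b)
        · rw [hT1 _ hw, k.X1_some i ⟨b, hb⟩ hw]
        · rw [hT2 _ hw, k.X1_none i ⟨b, hb⟩ hw]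
      rw [key]
      constructor
      · intro h5
        exact ⟨i, b, hb, h5, rfl, rfl⟩
      · rintro ⟨i', b', hb', h5, rfl, rfl⟩
        exact h5
    · rw [hS2 b hb, hT2 _ (k.out i b hb)]
      constructor
      · intro h5; exact absurd Iff.rfl h5
      · rintro ⟨i', b', hb', h5, rfl, rfl⟩
        exact absurd hb' hb
  rw [h4, Set.ncard_image_of_injective] at h3
  · exact h3
  · rintro ⟨i, a⟩ ⟨i', a'⟩ h5
    rw [Prod.mk.injEq] at h5
    rw [Prod.mk.injEq]
    exact ⟨h5.1, Subtype.ext h5.2⟩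

theorem C3_X2 (h : C3 X) : C3 k.X2 := by
  classical
  intro S' T' h1 h2
  let S'' : B → Prop := fun b => if hb : ¬ S b then S' (some ⟨b, hb⟩) else S' none
  let T'' : W → Prop := fun w => if hw : ¬ T w then T' ⟨w, hw⟩ else S' none
  have hS1 : ∀ b (hb : ¬ S b), S'' b = S' (some ⟨b, hb⟩) := fun b hb => dif_pos hb
  have hS2 : ∀ b (_ : S b), S'' b = S' none := fun b hb => dif_neg (not_not.2 hb)
  have hT1 : ∀ w (hw : ¬ T w), T'' w = T' ⟨w, hw⟩ := fun b hb => dif_pos hb
  have hT2 : ∀ w (_ : T w), T'' w = S' none := fun b hb => dif_neg (not_not.2 hb)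
  have e1 : (∃ b, S'' b) ∨ ∃ w, T'' w := by
    rcases h1 with ⟨a, ha⟩ | ⟨w, hw⟩
    · cases a with
      | none => exact Or.inl ⟨_, by rw [hS2 _ (k.hb 0)]; exact ha⟩
      | some a => exact Or.inl ⟨a.1, by rw [hS1 a.1 a.2]; exact ha⟩
    · exact Or.inr ⟨w.1, by rw [hT1 w.1 w.2]; exact hw⟩
  have e2 : (∃ b, ¬ S'' b) ∨ ∃ w, ¬ T'' w := by
    rcases h2 with ⟨a, ha⟩ | ⟨w, hw⟩
    · cases a with
      | none => exact Or.inl ⟨_, by rw [hS2 _ (k.hb 0)]; exact ha⟩
      | some a => exact Or.inl ⟨a.1, by rw [hS1 a.1 a.2]; exact ha⟩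
    · exact Or.inr ⟨w.1, by rw [hT1 w.1 w.2]; exact hw⟩
  have h3 := h S'' T'' e1 e2
  let φ : Fin 3 × Option {a // ¬ S a} → Fin 3 × B := fun p =>
    (p.1, p.2.elim (k.bb p.1) Subtype.val)
  have h4 : cutS X S'' T'' = φ '' cutS k.X2 S' T' := by
    ext p
    obtain ⟨i, b⟩ := p
    simp only [cutS, Set.mem_setOf_eq, Set.mem_image]
    by_cases hb : S b
    · rw [hS2 b hb]
      by_cases hw : T (X.e i b)
      · rw [hT2 _ hw]
        constructor
        · intro h5; exact absurd Iff.rfl h5
        · rintro ⟨⟨i', a⟩, h5, h6⟩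
          cases a with
          | none =>
            simp only [φ, Option.elim, Prod.mk.injEq] at h6
            obtain ⟨rfl, rfl⟩ := h6
            exact absurd hw (k.hw _)
          | some a =>
            simp only [φ, Option.elim, Prod.mk.injEq] at h6
            obtain ⟨rfl, rfl⟩ := h6
            exact absurd hb a.2
      · obtain rfl := k.only i b hb hw
        rw [hT1 _ hw]
        constructor
        · intro h5
          exact ⟨(i, none), h5, rfl⟩
        · rintro ⟨⟨i', a⟩, h5, h6⟩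
          cases a with
          | none =>
            simp only [φ, Option.elim, Prod.mk.injEq] at h6
            obtain ⟨rfl, h6⟩ := h6
            exact h5
          | some a =>
            simp only [φ, Option.elim, Prod.mk.injEq] at h6
            obtain ⟨rfl, h6⟩ := h6
            exact absurd (h6 ▸ hb) a.2
    · rw [hS1 b hb, hT1 _ (k.out i b hb)]
      constructor
      · intro h5
        exact ⟨(i, some ⟨b, hb⟩), h5, rfl⟩
      · rintro ⟨⟨i', a⟩, h5, h6⟩
        cases a with
        | none =>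
          simp only [φ, Option.elim, Prod.mk.injEq] at h6
          obtain ⟨rfl, h6⟩ := h6
          exact absurd (h6 ▸ k.hb _) hb
        | some a =>
          simp only [φ, Option.elim, Prod.mk.injEq] at h6
          obtain ⟨rfl, rfl⟩ := h6
          exact h5
  rw [h4, Set.ncard_image_of_injective] at h3
  · exact h3
  · rintro ⟨i, a⟩ ⟨i', a'⟩ h5
    simp only [φ, Prod.mk.injEq] at h5
    obtain ⟨rfl, h6⟩ := h5
    cases a with
    | none =>
      cases a' with
      | none => rfl
      | some a' =>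
        simp only [Option.elim] at h6
        exact absurd (h6 ▸ k.hb _) a'.2
    | some a =>
      cases a' with
      | none =>
        simp only [Option.elim] at h6
        exact absurd (h6 ▸ k.hb _) a.2
      | some a' =>
        simp only [Option.elim] at h6
        rw [Subtype.ext h6]

end Cut3

end Vale.Agent.P039.B893
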