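import Vale.Agent.P039.B893.Nf
import Vale.Agent.P039.BC.Defs

/-! Splitting a web along an edge cut with three edges. -/

namespace Vale.Agent.P039.B893

open Vale.Agent.P039.Sk

variable {B W V : Type}

/-- Exactly one edge of every colour leaves `S ∪ T`, always from a black vertex of `S`. -/
structure Cut3 (X : Web B W) (S : B → Prop) (T : W → Prop) where
  bb : Fin 3 → B
  hb : ∀ i, S (bb i)
  hw : ∀ i, ¬ T (X.e i (bb i))
  only : ∀ i a, S a → ¬ T (X.e i a) → a = bb i
  out : ∀ i a, ¬ S a → ¬ T (X.e i a)

namespace Cut3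

variable {X : Web B W} {S : B → Prop} {T : W → Prop} (k : Cut3 X S T)

include k in
theorem S_of_T {i : Fin 3} {a : B} (h : T (X.e i a)) : S a := by
  by_contra hS
  exact k.out i a hS h

theorem T_of_ne {i : Fin 3} {a : B} (ha : S a) (h : a ≠ k.bb i) : T (X.e i a) := by
  by_contra hT
  exact h (k.only i a ha hT)

open Classical in
noncomputable def f1 (_k : Cut3 X S T) (i : Fin 3) (a : {a // S a}) : Option {w // T w} :=
  if h : T (X.e i a.1) then some ⟨X.e i a.1, h⟩ else none

theorem f1_some (i : Fin 3) (a : {a // S a}) (h : T (X.e i a.1)) :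
    k.f1 i a = some ⟨X.e i a.1, h⟩ := dif_pos h

theorem f1_none (i : Fin 3) (a : {a // S a}) (h : ¬ T (X.e i a.1)) : k.f1 i a = none := dif_neg h

theorem f1_bb (i : Fin 3) : k.f1 i ⟨k.bb i, k.hb i⟩ = none := k.f1_none _ _ (k.hw i)

theorem f1_bij (i : Fin 3) : Function.Bijective (k.f1 i) := by
  constructor
  · intro a a' h
    by_cases h1 : T (X.e i a.1)
    · rw [k.f1_some i a h1] at h
      by_cases h2 : T (X.e i a'.1)
      · rw [k.f1_some i a' h2, Option.some.injEq, Subtype.mk.injEq] at h
        exact Subtype.ext ((X.e i).injective h)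
      · rw [k.f1_none i a' h2] at h
        exact absurd h (by simp)
    · rw [k.f1_none i a h1] at h
      by_cases h2 : T (X.e i a'.1)
      · rw [k.f1_some i a' h2] at h
        exact absurd h (by simp)
      · exact Subtype.ext ((k.only i _ a.2 h1).trans (k.only i _ a'.2 h2).symm)
  · intro w
    cases w with
    | none => exact ⟨_, k.f1_bb i⟩
    | some w =>
      have h : T (X.e i ((X.e i).symm w.1)) := by
        rw [Equiv.apply_symm_apply]; exact w.2
      refine ⟨⟨(X.e i).symm w.1, k.S_of_T h⟩, ?_⟩
      rw [k.f1_some i _ h, Option.some.injEq]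
      exact Subtype.ext ((X.e i).apply_symm_apply w.1)

/-- The side `S ∪ T`, the other side contracted to a white vertex. -/
noncomputable def X1 : Web {a // S a} (Option {w // T w}) :=
  ⟨fun i => Equiv.ofBijective (k.f1 i) (k.f1_bij i)⟩

def f2 (i : Fin 3) : Option {a // ¬ S a} → {w // ¬ T w}
  | none => ⟨X.e i (k.bb i), k.hw i⟩
  | some a => ⟨X.e i a.1, k.out i a.1 a.2⟩

theorem f2_bij (i : Fin 3) : Function.Bijective (k.f2 i) := by
  constructor
  · intro a a' h
    cases a with
    | none =>
      cases a' with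
      | none => rfl
      | some a' =>
        have h1 : X.e i (k.bb i) = X.e i a'.1 := congrArg Subtype.val h
        have h2 := (X.e i).injective h1
        exact absurd (k.hb i) (h2 ▸ a'.2)
    | some a =>
      cases a' with
      | none =>
        have h1 : X.e i a.1 = X.e i (k.bb i) := congrArg Subtype.val h
        have h2 := (X.e i).injective h1
        exact absurd (k.hb i) (h2 ▸ a.2)
      | some a' =>
        have h1 : X.e i a.1 = X.e i a'.1 := congrArg Subtype.val h
        rw [Subtype.ext ((X.e i).injective h1)]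
  · intro w
    by_cases h : S ((X.e i).symm w.1)
    · have h1 : ¬ T (X.e i ((X.e i).symm w.1)) := by
        rw [Equiv.apply_symm_apply]; exact w.2
      have h2 := k.only i _ h h1
      refine ⟨none, Subtype.ext ?_⟩
      change X.e i (k.bb i) = w.1
      rw [← h2, Equiv.apply_symm_apply]
    · refine ⟨some ⟨_, h⟩, Subtype.ext ?_⟩
      change X.e i ((X.e i).symm w.1) = w.1
      rw [Equiv.apply_symm_apply]

/-- The other side, `S ∪ T` contracted to a black vertex. -/
noncomputable def X2 : Web (Option {a // ¬ S a}) {w // ¬ T w} :=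
  ⟨fun i => Equiv.ofBijective (k.f2 i) (k.f2_bij i)⟩

theorem X1_e (i : Fin 3) (a : {a // S a}) : k.X1.e i a = k.f1 i a := rfl
theorem X1_some (i : Fin 3) (a : {a // S a}) (h : T (X.e i a.1)) :
    k.X1.e i a = some ⟨X.e i a.1, h⟩ := k.f1_some i a h
theorem X1_none (i : Fin 3) (a : {a // S a}) (h : ¬ T (X.e i a.1)) : k.X1.e i a = none :=
  k.f1_none i a h
theorem X1_bb (i : Fin 3) : k.X1.e i ⟨k.bb i, k.hb i⟩ = none := k.f1_bb i
theorem X2_none (i : Fin 3) : (k.X2.e i none).1 = X.e i (k.bb i) := rfl
theorem X2_some (i : Fin 3) (a : {a // ¬ S a}) : (k.X2.e i (some a)).1 = X.e i a.1 := rfl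

end Cut3

end Vale.Agent.P039.B893
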