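import Vale.Agent.P039.B893.C3

/-! The number of faces of the two sides of an edge cut with three edges. -/

namespace Vale.Agent.P039.B893

open Vale.Agent.P039.Sk

variable {B W V : Type}

/-- A function on the black corners which is constant along the faces takes at most `nf X`
values. -/
theorem ncard_le_nf {X : Web B W} [Finite B] {V' : Type} (c : Fin 3 → B → V')
    (step : ∀ j b b', X.e (j + 1) b' = X.e (j + 2) b → c j b' = c j b)
    (A : Set V') (hA : ∀ v ∈ A, ∃ j b, c j b = v) : A.ncard ≤ nf X := by
  classical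
  obtain ⟨V, _, _, ⟨L⟩⟩ := Final_exists_lab X
  rw [nf_eq L]
  let g : A → V := fun v => L.c (hA v.1 v.2).choose (hA v.1 v.2).choose_spec.choose
  have hg : Function.Injective g := by
    intro v v' h
    have h1 := (hA v.1 v.2).choose_spec.choose_spec
    have h2 := (hA v'.1 v'.2).choose_spec.choose_spec
    have h3 : L.c (hA v.1 v.2).choose (hA v.1 v.2).choose_spec.choose =
      L.c (hA v'.1 v'.2).choose (hA v'.1 v'.2).choose_spec.choose := h
    generalize (hA v.1 v.2).choose_spec.choose = b at h1 h3
    generalize (hA v.1 v.2).choose = j at h1 h3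
    generalize (hA v'.1 v'.2).choose_spec.choose = b' at h2 h3
    generalize (hA v'.1 v'.2).choose = j' at h2 h3
    obtain rfl := L.cls _ _ _ _ h3
    have h4 : c j b = c j b' := by
      have h5 := L.exact _ _ _ h3
      clear h3 h2 h1 h
      induction h5 with
      | rel x y h => exact (step _ _ _ h).symm
      | refl x => rfl
      | symm x y _ ih => exact ih.symm
      | trans x y z _ _ ih1 ih2 => exact ih1.trans ih2
    exact Subtype.ext (h1.symm.trans (h4.trans h2))
  have := Nat.card_le_card_of_injective g hg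
  rwa [Nat.card_coe_set_eq] at this

namespace Cut3

variable {X : Web B W} {S : B → Prop} {T : W → Prop} (k : Cut3 X S T)

theorem out_iff (i : Fin 3) (b : B) : ¬ T (X.e i b) ↔ ¬ S b ∨ b = k.bb i := by
  constructor
  · intro h
    by_cases hb : S b
    · exact Or.inr (k.only i b hb h)
    · exact Or.inl hb
  · rintro (h | rfl)
    · exact k.out i b h
    · exact k.hw i

/-- The two edges of a face of class `j` in the cut lie on one face. -/
theorem cross [Fintype B] (L : Lab X V) (j : Fin 3) :
    L.c j (k.bb (j + 1)) = L.c j (k.bb (j + 2)) := by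
  classical
  by_contra hne
  let v := L.c j (k.bb (j + 1))
  let P : Fin 3 → Finset B := fun i => Finset.univ.filter fun b => L.c j b = v ∧ ¬ T (X.e i b)
  let Q : Finset B := Finset.univ.filter fun b => L.c j b = v ∧ ¬ S b
  have h1 : P (j + 1) = insert (k.bb (j + 1)) Q := by
    ext b
    simp only [P, Q, Finset.mem_filter, Finset.mem_univ, true_and, Finset.mem_insert]
    rw [k.out_iff]
    constructor
    · rintro ⟨h1, h2 | h2⟩
      · exact Or.inr ⟨h1, h2⟩
      · exact Or.inl h2
    · rintro (rfl | ⟨h1, h2⟩)
      · exact ⟨rfl, Or.inr rfl⟩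
      · exact ⟨h1, Or.inl h2⟩
  have h2 : P (j + 2) = Q := by
    ext b
    simp only [P, Q, Finset.mem_filter, Finset.mem_univ, true_and]
    rw [k.out_iff]
    constructor
    · rintro ⟨h1, h2 | rfl⟩
      · exact ⟨h1, h2⟩
      · exact absurd h1.symm hne
    · rintro ⟨h1, h2⟩
      exact ⟨h1, Or.inl h2⟩
  have h3 : (P (j + 2)).card = (P (j + 1)).card := by
    refine Finset.card_bij (fun b _ => X.rho j b) ?_ ?_ ?_
    · intro b hb
      simp only [P, Finset.mem_filter, Finset.mem_univ, true_and] at hb ⊢
      have h4 : X.e (j + 1) (X.rho j b) = X.e (j + 2) b := by simp [Web.rho]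
      rw [h4, L.step j b _ h4]
      exact hb
    · intro a _ b _ h
      exact (X.rho j).injective h
    · intro b hb
      simp only [P, Finset.mem_filter, Finset.mem_univ, true_and] at hb
      refine ⟨(X.rho j).symm b, ?_, (X.rho j).apply_symm_apply b⟩
      have h4 : X.e (j + 1) b = X.e (j + 2) ((X.rho j).symm b) := by
        have h5 : X.e (j + 1) (X.rho j ((X.rho j).symm b)) = X.e (j + 2) ((X.rho j).symm b) := by
          simp [Web.rho]
        rwa [Equiv.apply_symm_apply] at h5
      simp only [P, Finset.mem_filter, Finset.mem_univ, true_and]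
      rw [← h4, ← L.step j _ b h4]
      exact hb
  rw [h1, h2, Finset.card_insert_of_notMem] at h3
  · omega
  · simp only [Q, Finset.mem_filter, Finset.mem_univ, true_and, not_and, not_not]
    intro _
    exact k.hb _

/-- faces of the second side -/
def c2 (L : Lab X V) (j : Fin 3) : Option {a // ¬ S a} → V
  | none => L.c j (k.bb (j + 1))
  | some a => L.c j a.1

theorem nf_add_ge [Fintype B] : nf X + 3 ≤ nf k.X1 + nf k.X2 := by
  classical
  obtain ⟨V, _, _, ⟨L⟩⟩ := Final_exists_lab X
  let A₁ : Set V := {v | ∃ j, ∃ b : {a // S a}, L.c j b.1 = v}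
  let A₂ : Set V := {v | ∃ j, ∃ b : Option {a // ¬ S a}, k.c2 L j b = v}
  have h1 : A₁.ncard ≤ nf k.X1 := by
    refine ncard_le_nf (fun j (b : {a // S a}) => L.c j b.1) ?_ A₁ (fun v hv => hv)
    intro j b b' h
    by_cases hb : T (X.e (j + 2) b.1)
    · rw [k.X1_some _ b hb] at h
      by_cases hb' : T (X.e (j + 1) b'.1)
      · rw [k.X1_some _ b' hb', Option.some.injEq, Subtype.mk.injEq] at h
        exact L.step _ _ _ h
      · rw [k.X1_none _ b' hb'] at h
        exact absurd h (by simp)
    · rw [k.X1_none _ b hb] at h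
      by_cases hb' : T (X.e (j + 1) b'.1)
      · rw [k.X1_some _ b' hb'] at h
        exact absurd h (by simp)
      · rw [k.only _ _ b.2 hb, k.only _ _ b'.2 hb']
        exact k.cross L j
  have h2 : A₂.ncard ≤ nf k.X2 := by
    refine ncard_le_nf (fun j b => k.c2 L j b) ?_ A₂ (fun v hv => hv)
    intro j b b' h
    have h' := congrArg Subtype.val h
    cases b with
    | none =>
      cases b' with
      | none => rfl
      | some b' =>
        rw [k.X2_none, k.X2_some] at h'
        exact (L.step _ _ _ h').trans (k.cross L j).symm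
    | some b =>
      cases b' with
      | none =>
        rw [k.X2_none, k.X2_some] at h'
        exact L.step _ _ _ h'
      | some b' =>
        rw [k.X2_some, k.X2_some] at h'
        exact L.step _ _ _ h'
  have h3 : A₁ ∪ A₂ = Set.univ := by
    ext v
    simp only [Set.mem_union, Set.mem_univ, iff_true]
    obtain ⟨j, b, rfl⟩ := L.surj v
    by_cases hb : S b
    · exact Or.inl ⟨j, ⟨b, hb⟩, rfl⟩
    · exact Or.inr ⟨j, some ⟨b, hb⟩, rfl⟩
  have h4 : 3 ≤ (A₁ ∩ A₂).ncard := by
    let f : Fin 3 → (A₁ ∩ A₂ : Set V) := fun j =>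
      ⟨L.c j (k.bb (j + 1)), ⟨j, ⟨_, k.hb _⟩, rfl⟩, ⟨j, none, rfl⟩⟩
    have hf : Function.Injective f := by
      intro j j' h
      exact L.cls _ _ _ _ (congrArg Subtype.val h)
    have := Nat.card_le_card_of_injective f hf
    rwa [Nat.card_coe_set_eq, Nat.card_eq_fintype_card, Fintype.card_fin] at this
  have h5 := Set.ncard_union_add_ncard_inter A₁ A₂
  rw [h3, Set.ncard_univ, ← nf_eq L] at h5
  omega

end Cut3

end Vale.Agent.P039.B893
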