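import Vale.Agent.P039.B893.Faces
import Vale.Agent.P039.H331.Cut
import Vale.Agent.P039.Bz.Conv

/-! The induction along edge cuts with three edges. -/

namespace Vale.Agent.P039.B893

open Vale.Agent.P039.Sk Vale.Agent.P039.Bn

variable {B W V : Type}

section

variable {X : Web B W} {S : B → Prop} {T : W → Prop}

def ofCut3 (C : H331.Cut3 X S T) : Cut3 X S T := ⟨C.bb, C.hb, C.hw, C.only, C.out⟩

theorem X1_eq (C : H331.Cut3 X S T) : C.X1 = (ofCut3 C).X1 := by
  have h : C.X1.e = (ofCut3 C).X1.e := by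
    funext i
    apply Equiv.ext
    intro a
    by_cases h : T (X.e i a.1)
    · rw [C.X1_some i a h, (ofCut3 C).X1_some i a h]
    · obtain rfl : a = ⟨C.bb i, C.hb i⟩ := Subtype.ext (C.only i a.1 a.2 h)
      rw [C.X1_none]
      exact ((ofCut3 C).X1_bb i).symm
  exact congrArg Web.mk h

theorem X2_eq (C : H331.Cut3 X S T) : C.X2 = (ofCut3 C).X2 := by
  have h : C.X2.e = (ofCut3 C).X2.e := by
    funext i
    apply Equiv.ext
    intro a
    cases a with
    | none => rfl
    | some a => rfl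
  exact congrArg Web.mk h

theorem c3_conn (h : H331.C3 X) : ConnC X :=
  C3.conn (fun S T h1 h2 => h S T h1 h2)

theorem nf_le' [Finite B] [Finite W] (h : H331.C3 X) : nf X ≤ Nat.card B + 2 := by
  have _ := Fintype.ofFinite B
  have _ := Fintype.ofFinite W
  rw [Nat.card_eq_fintype_card]
  exact nf_le (c3_conn h)

/-- Both sides of an edge cut with three edges of a spherical web are spherical. -/
theorem sph_sides [Finite B] [Finite W] (h3 : H331.C3 X) (hn : nf X = Nat.card B + 2)
    (C : H331.Cut3 X S T) :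
    nf C.X1 = Nat.card {a // S a} + 2 ∧ nf C.X2 = Nat.card (Option {a // ¬ S a}) + 2 := by
  classical
  have h1 := nf_le' (H331.C3_X1 h3 C)
  have h2 := nf_le' (H331.C3_X2 h3 C)
  have h4 : nf X + 3 ≤ nf C.X1 + nf C.X2 := by
    have _ := Fintype.ofFinite B
    rw [X1_eq, X2_eq]
    exact (ofCut3 C).nf_add_ge
  have h5 : Nat.card {a // S a} + Nat.card (Option {a // ¬ S a}) = Nat.card B + 1 := by
    rw [Finite.card_option, ← add_assoc, ← Nat.card_sum, Nat.card_congr (Equiv.sumCompl S)]
  omega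

end

/-- Only trivial cuts have three edges. -/
theorem c4_of [Fintype B] [Fintype W] (M : PMap B W V) (h4 : H331.C4 (⟨M.e⟩ : Web B W)) :
    Bz.C4 M := by
  classical
  have key : ∀ (S : B → Prop) (T : W → Prop) (_ : H331.Cut3 (⟨M.e⟩ : Web B W) S T),
      H331.cutc (⟨M.e⟩ : Web B W) S T = 3 →
      ({a | S a} : Set B).ncard + ({w | T w} : Set W).ncard ≤ 1 ∨
        ({a | S a} : Set B)ᶜ.ncard + ({w | T w} : Set W)ᶜ.ncard ≤ 1 := by
    intro S T C hc
    by_cases hT : ∃ w, T w
    · by_cases hS : ∃ a, ¬ S a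
      · have := h4 S T ⟨_, C.hb 0⟩ hT hS ⟨_, C.hw 0⟩
        omega
      · right
        push Not at hS
        have e1 : ({a | S a} : Set B)ᶜ = ∅ := by
          ext a; simp [hS a]
        have e2 : ({w | T w} : Set W)ᶜ.ncard ≤ 1 := by
          rw [Set.ncard_le_one]
          intro w hw w' hw'
          have h1 := C.only 0 ((M.e 0).symm w) (hS _) (by
            change ¬ T (M.e 0 ((M.e 0).symm w))
            rw [Equiv.apply_symm_apply]; exact hw)
          have h2 := C.only 0 ((M.e 0).symm w') (hS _) (by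
            change ¬ T (M.e 0 ((M.e 0).symm w'))
            rw [Equiv.apply_symm_apply]; exact hw')
          exact (M.e 0).symm.injective (h1.trans h2.symm)
        rw [e1, Set.ncard_empty]
        omega
    · left
      push Not at hT
      have e1 : ({w | T w} : Set W) = ∅ := by
        ext w; simp [hT w]
      have e2 : ({a | S a} : Set B).ncard ≤ 1 := by
        rw [Set.ncard_le_one]
        intro a ha a' ha'
        exact (C.only 0 a ha (hT _)).trans (C.only 0 a' ha' (hT _)).symm
      rw [e1, Set.ncard_empty]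
      omega
  intro S T hc
  rw [Bz.cutc_eq_ncard] at hc
  have hc' : H331.cutc (⟨M.e⟩ : Web B W) (fun b => b ∈ S) (fun w => w ∈ T) = 3 := hc
  rcases H331.exists_cut3 _ _ _ hc' with ⟨⟨C⟩⟩ | ⟨⟨C⟩⟩
  · exact key _ _ C hc'
  · have hc2 : H331.cutc (⟨M.e⟩ : Web B W) (fun b => ¬ b ∈ S) (fun w => ¬ w ∈ T) = 3 := by
      rw [← hc']
      unfold H331.cutc
      congr 1
      ext p
      simp only [Set.mem_ofPred_eq]
      tauto
    have h := key _ _ C hc2
    have e1 : ({a | ¬ a ∈ S} : Set B) = Sᶜ := rfl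
    have e2 : ({a | ¬ a ∈ T} : Set W) = Tᶜ := rfl
    rw [e1, e2, compl_compl, compl_compl] at h
    exact h.symm

theorem glueStmt : Bz.GlueStmt := by
  intro core B W V _ _ _ M hM h3
  classical
  have main := H331.induct (fun {B W} _ _ X => nf X = Nat.card B + 2)
    (fun X S T C hn h3 _ _ => (sph_sides h3 hn C).1)
    (fun X S T C hn h3 _ _ => (sph_sides h3 hn C).2)
    (fun {B W} _ _ X hn h3 h4 => by
      have _ := Fintype.ofFinite B
      have _ := Fintype.ofFinite W
      obtain ⟨V, _, _, ⟨L⟩⟩ := Final_exists_lab X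
      have hC3 : Bz.C3 (Bz.ofLab L) := by
        intro S T h1 h2
        rw [Bz.cutc_eq_ncard]
        exact h3 (fun b => b ∈ S) (fun w => w ∈ T) h1 h2
      have hS : (Bz.ofLab L).Sph := by
        refine ⟨Bz.conn_of_c3 _ hC3, ?_⟩
        rw [← Nat.card_eq_fintype_card, ← Nat.card_eq_fintype_card, ← nf_eq L]
        exact hn
      have hC4 : Bz.C4 (Bz.ofLab L) := c4_of _ h4
      intro b i
      obtain ⟨m, hm, hi⟩ := core B W V (Bz.ofLab L) hS hC3 hC4 b i
      refine ⟨m, hi, hm.1, ?_⟩
      intro P Q hPQ hP a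
      exact hm.2 {a | P a} {w | Q w} hPQ hP a)
    (Bz.toWeb M) ?_ ?_
  · intro b i
    obtain ⟨m, hi, hm1, hm2⟩ := main b i
    refine ⟨m, ⟨hm1, ?_⟩, hi⟩
    intro S T hST hS b
    exact hm2 (fun b => b ∈ S) (fun w => w ∈ T) hST hS b
  · rw [nf_eq (Bz.toLab M), Nat.card_eq_fintype_card, Nat.card_eq_fintype_card]
    exact hM.card
  · intro S T h1 h2
    have := h3 {b | S b} {w | T w} h1 h2
    rw [Bz.cutc_eq_ncard] at this
    exact this

end Vale.Agent.P039.B893
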