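import Vale.Agent.P039.Sp.LemD

/-! Number of faces of a web; Euler's inequality. -/

namespace Vale.Agent.P039.B893

open Vale.Agent.P039.Sk

variable {B W V : Type}

/-- The number of faces: the cycles of the three permutations `X.rho j`. -/
noncomputable def nf (X : Web B W) : ℕ :=
  ∑ j : Fin 3, Nat.card (Quotient (Equiv.Perm.SameCycle.setoid (X.rho j)))

/-- The faces of a labelled web are the cycles of the permutations `X.rho j`. -/
noncomputable def faceMap {X : Web B W} [Finite B] (L : Lab X V) :
    (Σ j : Fin 3, Quotient (Equiv.Perm.SameCycle.setoid (X.rho j))) → V :=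
  fun p => Quotient.lift (fun b => L.c p.1 b)
    (fun a b h => (L.sameFace p.1 a b).1 h) p.2

theorem faceMap_mk {X : Web B W} [Finite B] (L : Lab X V) (j : Fin 3) (b : B) :
    faceMap L ⟨j, Quotient.mk _ b⟩ = L.c j b := rfl

theorem faceMap_bijective {X : Web B W} [Finite B] (L : Lab X V) :
    Function.Bijective (faceMap L) := by
  constructor
  · rintro ⟨j, q⟩ ⟨j', q'⟩ h
    induction q using Quotient.ind with
    | _ b =>
      induction q' using Quotient.ind with
      | _ b' =>
        rw [faceMap_mk, faceMap_mk] at h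
        obtain rfl := L.cls _ _ _ _ h
        have h2 : (Quotient.mk (Equiv.Perm.SameCycle.setoid (X.rho j)) b) = Quotient.mk _ b' :=
          Quotient.sound ((L.sameFace j b b').2 h)
        rw [h2]
  · intro v
    obtain ⟨j, b, h⟩ := L.surj v
    exact ⟨⟨j, Quotient.mk _ b⟩, h⟩

/-- `nf X` is the number of faces of every labelling. -/
theorem nf_eq {X : Web B W} [Finite B] (L : Lab X V) : nf X = Nat.card V := by
  classical
  have : ∀ j : Fin 3, Finite (Quotient (Equiv.Perm.SameCycle.setoid (X.rho j))) :=
    fun j => Quot.finite _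
  rw [← Nat.card_eq_of_bijective _ (faceMap_bijective L), Nat.card_sigma]
  rfl

/-- Connectedness of a web in the form of cuts. -/
def ConnC (X : Web B W) : Prop :=
  ∀ (S : B → Prop) (T : W → Prop), (∀ i b, S b ↔ T (X.e i b)) → (∃ w, T w) → ∀ w, T w

theorem ConnC.wconn {X : Web B W} (h : ConnC X) : X.WConn (fun _ => true) true := by
  intro w w'
  refine h (fun b => Relation.EqvGen (fun w w' => ∃ b i i', (fun _ : B => true) b = true ∧
      X.e i b = w ∧ X.e i' b = w') w (X.e 0 b)) _ ?_ ⟨w, Relation.EqvGen.refl _⟩ w'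
  intro i b
  constructor
  · intro h1
    exact h1.trans _ _ _ (Relation.EqvGen.rel _ _ ⟨b, 0, i, rfl, rfl, rfl⟩)
  · intro h1
    exact h1.trans _ _ _ (Relation.EqvGen.rel _ _ ⟨b, i, 0, rfl, rfl, rfl⟩)

/-- Euler's inequality for connected webs. -/
theorem nf_le {X : Web B W} [Fintype B] [Fintype W] (h : ConnC X) : nf X ≤ Fintype.card B + 2 := by
  classical
  obtain ⟨V, _, _, ⟨L⟩⟩ := Final_exists_lab X
  rw [nf_eq L, Nat.card_eq_fintype_card]
  exact euler_le X L.c L.step L.surj h.wconn

end Vale.Agent.P039.B893
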